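import Vale.Agent.P181.TS.Spec

/-!
# P181, line TS, block [SYS] (helper283): a system of tests from a test in every class
-/

set_option autoImplicit false
set_option linter.all false

namespace Vale.Agent.P181.TS.H283

open Finset Vale.Agent.P181.TS

/-- the test of a finite set of letters -/
theorem cls_test (hT : TestStmt) {b : ℕ} (S : Finset (Fin b)) (hS : 64 ≤ S.card) :
    ∃ (Y : Fin b → ℕ → Bool) (F : ℕ → Finset (Fin b × Fin b)),
      (∀ κ, ∀ e ∈ F κ, e.1 ∈ S ∧ e.2 ∈ S ∧ Y e.1 κ ≠ Y e.2 κ) ∧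
      (∀ κ, (F κ).card ≤ 2 * S.card) ∧
      (∀ κ u, ((F κ).filter fun e => e.1 = u ∨ e.2 = u).card ≤ 10) ∧
      (∀ κ, Nat.log 2 S.card + 2 ≤ κ → F κ = ∅) ∧
      ∀ ρ : Equiv.Perm (Fin b), (∀ u ∈ S, ρ u ∈ S) →
        (∀ κ, ∀ e ∈ F κ, Y (ρ e.1) κ ≠ Y (ρ e.2) κ) → ∀ u ∈ S, ρ u = u := by
  classical
  have h0 := hT S.card hS
  obtain ⟨L, hL⟩ : ∃ L, Nat.log 2 S.card + 2 = L := ⟨_, rfl⟩
  rw [hL] at h0 ⊢
  obtain ⟨y, E, h1, h2, h3, h4⟩ := h0
  let ε : S ≃ Fin S.card := S.equivFin
  let ψ : Fin S.card → Fin b := fun p => (ε.symm p : Fin b)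
  have hψ : Function.Injective ψ := Subtype.val_injective.comp ε.symm.injective
  have hψS : ∀ p, ψ p ∈ S := fun p => (ε.symm p).2
  let Y : Fin b → ℕ → Bool := fun u κ =>
    if h : u ∈ S ∧ κ < L then y (ε ⟨u, h.1⟩) ⟨κ, h.2⟩ else false
  let F : ℕ → Finset (Fin b × Fin b) := fun κ =>
    if h : κ < L then (E ⟨κ, h⟩).image fun e => (ψ e.1, ψ e.2) else ∅
  have hY : ∀ u (hu : u ∈ S) κ (hκ : κ < L), Y u κ = y (ε ⟨u, hu⟩) ⟨κ, hκ⟩ := by
    intro u hu κ hκ
    simp only [Y]
    rw [dif_pos ⟨hu, hκ⟩]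
  have hYψ : ∀ p κ (hκ : κ < L), Y (ψ p) κ = y p ⟨κ, hκ⟩ := by
    intro p κ hκ
    rw [hY (ψ p) (hψS p) κ hκ]
    congr 1
    exact ε.apply_symm_apply p
  have hF : ∀ κ (hκ : κ < L), F κ = (E ⟨κ, hκ⟩).image fun e => (ψ e.1, ψ e.2) := by
    intro κ hκ
    simp only [F]
    rw [dif_pos hκ]
  have hF0 : ∀ κ, L ≤ κ → F κ = ∅ := by
    intro κ hκ
    simp only [F]
    rw [dif_neg (not_lt.2 hκ)]
  refine ⟨Y, F, ?_, ?_, ?_, hF0, ?_⟩
  · intro κ e he
    rcases lt_or_ge κ L with hκ | hκ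
    · rw [hF κ hκ, Finset.mem_image] at he
      obtain ⟨p, hp, rfl⟩ := he
      refine ⟨hψS _, hψS _, ?_⟩
      rw [hYψ _ κ hκ, hYψ _ κ hκ]
      exact h1 _ p hp
    · rw [hF0 κ hκ] at he
      exact absurd he (Finset.notMem_empty _)
  · intro κ
    rcases lt_or_ge κ L with hκ | hκ
    · rw [hF κ hκ]
      exact Finset.card_image_le.trans (h2 _)
    · rw [hF0 κ hκ, Finset.card_empty]
      exact Nat.zero_le _
  · intro κ u
    rcases lt_or_ge κ L with hκ | hκ
    · by_cases hu : ∃ p, ψ p = u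
      · obtain ⟨p, rfl⟩ := hu
        refine le_trans ?_ (h3 ⟨κ, hκ⟩ p)
        rw [hF κ hκ, Finset.filter_image]
        refine Finset.card_image_le.trans (Finset.card_le_card fun e he => ?_)
        rw [Finset.mem_filter] at he ⊢
        refine ⟨he.1, he.2.imp (fun h => hψ h) fun h => hψ h⟩
      · rw [hF κ hκ, Finset.filter_image, Finset.filter_false_of_mem, Finset.image_empty,
          Finset.card_empty]
        · exact Nat.zero_le _
        · intro e _ he
          exact he.elim (fun h => hu ⟨_, h⟩) fun h => hu ⟨_, h⟩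
    · rw [hF0 κ hκ, Finset.filter_empty, Finset.card_empty]
      exact Nat.zero_le _
  · intro ρ hρ hE u hu
    -- the permutation of `Fin S.card`
    let σ : Equiv.Perm S := ρ.subtypePerm (fun x => by
      constructor
      · intro hx
        -- `ρ` maps `S` onto `S`
        have himg : S.image ρ = S := by
          refine Finset.eq_of_subset_of_card_le (fun x hx => ?_) ?_
          · obtain ⟨v, hv, rfl⟩ := Finset.mem_image.1 hx
            exact hρ v hv
          · rw [Finset.card_image_of_injective _ ρ.injective]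
        rw [← himg, Finset.mem_image] at hx
        obtain ⟨v, hv, hvx⟩ := hx
        rwa [← ρ.injective hvx]
      · exact hρ x)
    let τ : Equiv.Perm (Fin S.card) := (ε.symm.trans σ).trans ε
    have hτ : ∀ p, ψ (τ p) = ρ (ψ p) := by
      intro p
      change ((ε.symm (ε (σ (ε.symm p))) : S) : Fin b) = ρ (ε.symm p)
      rw [ε.symm_apply_apply]
      rfl
    have h5 : τ = 1 := by
      refine h4 τ fun κ e he => ?_
      have h6 := hE κ (ψ e.1, ψ e.2) (by
        rw [hF κ κ.2]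
        exact Finset.mem_image_of_mem _ he)
      rw [← hτ, ← hτ, hYψ _ _ κ.2, hYψ _ _ κ.2] at h6
      exact h6
    have h7 := hτ (ε ⟨u, hu⟩)
    rw [h5] at h7
    have h8 : ψ (ε ⟨u, hu⟩) = u := by
      change ((ε.symm (ε ⟨u, hu⟩) : S) : Fin b) = u
      rw [ε.symm_apply_apply]
    rw [Equiv.Perm.one_apply, h8] at h7
    exact h7.symm

/-- the `m`-th class of the block of `i` which is different from `i` -/
def kv (r : ℕ) (i m : ℕ) : ℕ := r * (i / r) + if m < i % r then m else m + 1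

theorem kv_div {r i m : ℕ} (hm : m + 1 < r) : kv r i m / r = i / r := by
  unfold kv
  have hr : 0 < r := by omega
  rw [Nat.mul_add_div hr]
  have : (if m < i % r then m else m + 1) / r = 0 := by
    apply Nat.div_eq_of_lt
    split_ifs <;> omega
  omega

theorem kv_ne {r i m : ℕ} (hm : m + 1 < r) : kv r i m ≠ i := by
  unfold kv
  have h := Nat.div_add_mod i r
  intro h'
  split_ifs at h' with h1 <;> omega

theorem kv_inj {r i m m' : ℕ} (h : kv r i m = kv r i m') : m = m' := by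
  unfold kv at h
  split_ifs at h <;> omega

theorem kv_lt {g r i m : ℕ} (hi : i < g * r) (hm : m + 1 < r) : kv r i m < g * r := by
  have hr : 0 < r := by omega
  have h1 : kv r i m / r < g := by
    rw [kv_div hm]
    exact (Nat.div_lt_iff_lt_mul hr).2 hi
  exact (Nat.div_lt_iff_lt_mul hr).1 h1

/-- a block has at most `r` classes -/
theorem blk_card {n r : ℕ} (hr : 0 < r) (β : ℕ) :
    (univ.filter fun i : Fin n => (i : ℕ) / r = β).card ≤ r := by
  have h := Finset.card_le_card_of_injOn (s := univ.filter fun i : Fin n => (i : ℕ) / r = β)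
    (t := Finset.range r) (fun i => (i : ℕ) % r)
    (fun i _ => by
      simp only [Finset.coe_range, Set.mem_Iio]
      exact Nat.mod_lt _ hr)
    (fun i hi j hj hij => by
      simp only [Finset.coe_filter, Finset.mem_univ, true_and, Set.mem_setOf_eq] at hi hj hij
      apply Fin.ext
      rw [← Nat.div_add_mod (i : ℕ) r, ← Nat.div_add_mod (j : ℕ) r, hi, hj, hij])
  rwa [Finset.card_range] at h

/-- **[TS-SYS]** -/
theorem sysStmt : TestStmt → SysStmt := by
  classical
  intro hT b r g e cl hr he hcl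
  have hr0 : 0 < r := by omega
  have hT' := fun i : Fin (g * r) => cls_test hT (cls cl i) (he.trans (hcl i).1)
  choose Y F a1 a2 a3 a4 a5 using hT'
  have hmem : ∀ i u, u ∈ cls cl i ↔ cl u = i := fun i u => by simp [cls]
  -- few colours
  have hlog : ∀ i, Nat.log 2 (cls cl i).card + 2 + 1 < r := by
    intro i
    have h1 : (cls cl i).card ≤ b := by
      have := Finset.card_le_univ (cls cl i)
      rwa [Fintype.card_fin] at this
    have h2 : Nat.log 2 (cls cl i).card ≤ Nat.log 2 b := Nat.log_mono_right h1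
    omega
  have hFκ : ∀ i κ, ∀ p ∈ F i κ, κ + 1 < r := by
    intro i κ p hp
    by_contra h
    have h1 := hlog i
    rw [a4 i κ (by omega)] at hp
    exact absurd hp (Finset.notMem_empty _)
  -- the class of a colour
  let kk : Fin (g * r) → ℕ → Fin (g * r) := fun i m =>
    if h : m + 1 < r then ⟨kv r i m, kv_lt i.2 h⟩ else i
  have hkk : ∀ i m, m + 1 < r → (kk i m : ℕ) = kv r i m := by
    intro i m h
    simp only [kk]
    rw [dif_pos h]
  have kk_inj : ∀ i m m', m + 1 < r → m' + 1 < r → kk i m = kk i m' → m = m' := by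
    intro i m m' h h' h1
    have h2 : (kk i m : ℕ) = kk i m' := congrArg Fin.val h1
    rw [hkk i m h, hkk i m' h'] at h2
    exact kv_inj h2
  let y : Fin b → Fin (g * r) → Bool := fun u j =>
    if h : ∃ m, m + 1 < r ∧ kk (cl u) m = j then Y (cl u) u h.choose else false
  have hy : ∀ u m, m + 1 < r → y u (kk (cl u) m) = Y (cl u) u m := by
    intro u m hm
    have hex : ∃ m', m' + 1 < r ∧ kk (cl u) m' = kk (cl u) m := ⟨m, hm, rfl⟩
    have h1 : y u (kk (cl u) m) = Y (cl u) u hex.choose := by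
      simp only [y]
      rw [dif_pos hex]
    rw [h1, kk_inj (cl u) _ m hex.choose_spec.1 hm hex.choose_spec.2]
  let T : Finset (Tst b (g * r)) := univ.filter fun t =>
    ∃ m, m + 1 < r ∧ t.2.1 = kk t.1 m ∧ (t.2.2.1, t.2.2.2) ∈ F t.1 m
  have hTm : ∀ t, t ∈ T ↔ ∃ m, m + 1 < r ∧ t.2.1 = kk t.1 m ∧ (t.2.2.1, t.2.2.2) ∈ F t.1 m :=
    fun t => by simp [T]
  -- the tests of a pair (class, colour)
  let P : Fin (g * r) × ℕ → Finset (Tst b (g * r)) := fun p =>
    (F p.1 p.2).image fun q => (p.1, kk p.1 p.2, q.1, q.2)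
  have hP : ∀ p, (P p).card ≤ 2 * (e + g * r) := fun p =>
    Finset.card_image_le.trans ((a2 p.1 p.2).trans (Nat.mul_le_mul_left 2 (hcl p.1).2))
  have hTP : ∀ t ∈ T, ∃ m, m + 1 < r ∧ t.2.1 = kk t.1 m ∧ t ∈ P (t.1, m) := by
    intro t ht
    obtain ⟨m, h1, h2, h3⟩ := (hTm t).1 ht
    refine ⟨m, h1, h2, Finset.mem_image.2 ⟨(t.2.2.1, t.2.2.2), h3, ?_⟩⟩
    rw [← h2]
  refine ⟨y, T, ?_, ?_, ?_, ?_, ?_⟩
  · intro t ht
    obtain ⟨m, h1, h2, h3⟩ := (hTm t).1 ht
    obtain ⟨h4, h5, h6⟩ := a1 t.1 m _ h3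
    have c1 : cl t.2.2.1 = t.1 := (hmem _ _).1 h4
    have c2 : cl t.2.2.2 = t.1 := (hmem _ _).1 h5
    refine ⟨c1, c2, ?_, ?_, ?_, ?_⟩
    · intro h
      apply h6
      change Y t.1 t.2.2.1 m = Y t.1 t.2.2.2 m
      rw [h]
    · intro h
      have h7 := congrArg Fin.val h
      rw [h2, hkk _ _ h1] at h7
      exact kv_ne h1 h7
    · rw [h2, hkk _ _ h1]
      exact kv_div h1
    · have e1 := hy t.2.2.1 m h1
      have e2 := hy t.2.2.2 m h1
      rw [c1] at e1
      rw [c2] at e2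
      rw [h2, e1, e2]
      exact h6
  · intro β
    have h1 : (T.filter fun t => (t.1 : ℕ) / r = β) ⊆
        ((univ.filter fun i : Fin (g * r) => (i : ℕ) / r = β) ×ˢ Finset.range r).biUnion P := by
      intro t ht
      obtain ⟨ht1, ht2⟩ := Finset.mem_filter.1 ht
      obtain ⟨m, h1, h2, h3⟩ := hTP t ht1
      refine Finset.mem_biUnion.2 ⟨(t.1, m), ?_, h3⟩
      simp only [Finset.mem_product, Finset.mem_filter, Finset.mem_univ, true_and,
        Finset.mem_range]
      exact ⟨ht2, by omega⟩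
    refine (Finset.card_le_card h1).trans (Finset.card_biUnion_le.trans ?_)
    refine (Finset.sum_le_card_nsmul _ _ _ fun p _ => hP p).trans ?_
    rw [Finset.card_product, Finset.card_range, smul_eq_mul]
    have h2 := blk_card (n := g * r) hr0 β
    calc _ ≤ r * r * (2 * (e + g * r)) := Nat.mul_le_mul_right _ (Nat.mul_le_mul_right _ h2)
      _ = _ := by ring
  · intro k
    let Q : Finset (Fin (g * r) × ℕ) :=
      ((univ.filter fun i : Fin (g * r) => (i : ℕ) / r = (k : ℕ) / r) ×ˢ Finset.range r).filter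
        fun p => p.2 + 1 < r ∧ kk p.1 p.2 = k
    have h1 : (T.filter fun t => t.2.1 = k) ⊆ Q.biUnion P := by
      intro t ht
      obtain ⟨ht1, ht2⟩ := Finset.mem_filter.1 ht
      obtain ⟨m, h1, h2, h3⟩ := hTP t ht1
      refine Finset.mem_biUnion.2 ⟨(t.1, m), ?_, h3⟩
      simp only [Q, Finset.mem_product, Finset.mem_filter, Finset.mem_univ, true_and,
        Finset.mem_range]
      refine ⟨⟨?_, by omega⟩, h1, by rw [← h2, ht2]⟩
      rw [← ht2, h2, hkk _ _ h1, kv_div h1]
    have hQ : Q.card ≤ r := by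
      refine le_trans ?_ (blk_card (n := g * r) hr0 ((k : ℕ) / r))
      refine Finset.card_le_card_of_injOn (fun p => p.1) ?_ ?_
      · intro p hp
        simp only [Q, Finset.coe_filter, Finset.mem_product, Finset.mem_filter, Finset.mem_univ,
          true_and, Finset.mem_range, Set.mem_setOf_eq] at hp ⊢
        exact hp.1.1
      · intro p hp q hq hpq
        simp only [Q, Finset.coe_filter, Finset.mem_product, Finset.mem_filter, Finset.mem_univ,
          true_and, Finset.mem_range, Set.mem_setOf_eq] at hp hq hpq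
        refine Prod.ext hpq (kk_inj p.1 _ _ hp.2.1 hq.2.1 ?_)
        rw [hp.2.2, hpq, hq.2.2]
    refine (Finset.card_le_card h1).trans (Finset.card_biUnion_le.trans ?_)
    refine (Finset.sum_le_card_nsmul _ _ _ fun p _ => hP p).trans ?_
    rw [smul_eq_mul]
    calc _ ≤ r * (2 * (e + g * r)) := Nat.mul_le_mul_right _ hQ
      _ = _ := by ring
  · intro u
    have h1 : (T.filter fun t => t.2.2.1 = u ∨ t.2.2.2 = u) ⊆
        (Finset.range r).biUnion fun m =>
          ((F (cl u) m).filter fun q => q.1 = u ∨ q.2 = u).image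
            fun q => (cl u, kk (cl u) m, q.1, q.2) := by
      intro t ht
      obtain ⟨ht1, ht2⟩ := Finset.mem_filter.1 ht
      obtain ⟨m, h1, h2, h3⟩ := (hTm t).1 ht1
      obtain ⟨h4, h5, h6⟩ := a1 t.1 m _ h3
      have c1 : cl t.2.2.1 = t.1 := (hmem _ _).1 h4
      have c2 : cl t.2.2.2 = t.1 := (hmem _ _).1 h5
      have hc : cl u = t.1 := by
        rcases ht2 with h | h
        · rw [← h]; exact c1
        · rw [← h]; exact c2
      refine Finset.mem_biUnion.2 ⟨m, Finset.mem_range.2 (by omega), ?_⟩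
      refine Finset.mem_image.2 ⟨(t.2.2.1, t.2.2.2), Finset.mem_filter.2 ⟨?_, ht2⟩, ?_⟩
      · rw [hc]; exact h3
      · rw [hc, ← h2]
    refine (Finset.card_le_card h1).trans (Finset.card_biUnion_le.trans ?_)
    refine (Finset.sum_le_card_nsmul _ _ 10 fun m _ =>
      Finset.card_image_le.trans (a3 (cl u) m u)).trans ?_
    rw [Finset.card_range, smul_eq_mul, Nat.mul_comm]
  · intro ρ hρ hE
    ext u
    rw [Equiv.Perm.one_apply]
    congr 1
    refine a5 (cl u) ρ (fun v hv => ?_) (fun m p hp => ?_) u ((hmem _ _).2 rfl)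
    · rw [hmem] at hv ⊢
      rw [hρ, hv]
    · have hm := hFκ _ _ p hp
      obtain ⟨h4, h5, h6⟩ := a1 (cl u) m p hp
      have c1 : cl p.1 = cl u := (hmem _ _).1 h4
      have c2 : cl p.2 = cl u := (hmem _ _).1 h5
      have h7 := hE (cl u, kk (cl u) m, p.1, p.2) ((hTm _).2 ⟨m, hm, rfl, hp⟩)
      have e1 := hy (ρ p.1) m hm
      have e2 := hy (ρ p.2) m hm
      rw [hρ, c1] at e1
      rw [hρ, c2] at e2
      have h8 : y (ρ p.1) (kk (cl u) m) ≠ y (ρ p.2) (kk (cl u) m) := h7
      rwa [e1, e2] at h8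

end Vale.Agent.P181.TS.H283
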